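import Vale.Agent.P154.Neg.Band.Five.Data

/-!
# P154: kernel checks of the band that contains every edge of a tree with mean offspring at least five
-/

namespace Vale.Agent.P154.Neg.Band.Five

theorem shape_check : shapeOk data = true := by decide +kernel

theorem side_check : sideOk data = true := by decide +kernel

theorem id_check : ∀ k, idOk data k = true := by decide +kernel

theorem range_check : ∀ k, rangeOk data k = true := by decide +kernel

theorem sur_check0 : surOk data 0 = true := by decide +kernel

theorem sur_check1 : surOk data 1 = true := by decide +kernel

theorem key_check0 : keyOk data 0 = true := by decide +kernel

theorem key_check1 : keyOk data 1 = true := by decide +kernel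

end Vale.Agent.P154.Neg.Band.Five
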