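import Vale.Agent.P154.Neg.Band.Check

/-!
# P154: data of the band `l ∈ [-51/114, -38/114)`

Exact rationals of a linear program solution, with bisection trees found by an exact search.
-/

namespace Vale.Agent.P154.Neg.Band.Five

open Large

/-- The functionals. -/
def phi : Fin 2 → List Term := ![
  [⟨37748736, 0, 1, 0, 0, 0⟩, ⟨336426, 0, 2, 0, 0, 0⟩, ⟨895224, 0, 1, 1, 0, 0⟩,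
    ⟨75477, 0, 3, 0, 0, 0⟩, ⟨621222, 0, 0, 2, 0, 0⟩],
  [⟨31584888, 0, 1, 0, 0, 0⟩, ⟨-9087408, 0, 0, 1, 0, 0⟩, ⟨7648458, 0, 2, 0, 0, 0⟩,
    ⟨-9496764, 0, 1, 1, 0, 0⟩, ⟨569171, 0, 3, 0, 0, 0⟩, ⟨2167752, 0, 0, 2, 0, 0⟩]]

/-- The correction. -/
def rem : Fin 2 → List Term := ![
  [⟨1213106544, 0, 0, 0, 0, 0⟩, ⟨3568240296, 1, 0, 0, 0, 0⟩, ⟨4727547936, 2, 0, 0, 0, 0⟩,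
    ⟨3449922192, 3, 0, 0, 0, 0⟩, ⟨1332430344, 4, 0, 0, 0, 0⟩, ⟨443819952, 5, 0, 0, 0, 0⟩,
    ⟨210644496, 6, 0, 0, 0, 0⟩, ⟨-8885096496, 0, 1, 0, 0, 0⟩, ⟨-11597848272, 1, 1, 0, 0, 0⟩,
    ⟨-8619773544, 2, 1, 0, 0, 0⟩, ⟨-2858858064, 3, 1, 0, 0, 0⟩, ⟨-480299976, 4, 1, 0, 0, 0⟩,
    ⟨18504276336, 0, 2, 0, 0, 0⟩, ⟨-4767735384, 1, 2, 0, 0, 0⟩, ⟨10014634800, 2, 2, 0, 0, 0⟩,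
    ⟨-4520611944, 0, 3, 0, 0, 0⟩, ⟨16269854616, 0, 0, 1, 0, 0⟩, ⟨10349072568, 1, 0, 1, 0, 0⟩,
    ⟨-6610705056, 2, 0, 1, 0, 0⟩, ⟨2840640408, 3, 0, 1, 0, 0⟩, ⟨-73479355416, 0, 1, 1, 0, 0⟩,
    ⟨78286898736, 1, 1, 1, 0, 0⟩, ⟨124331325624, 0, 0, 2, 0, 0⟩],
  [⟨1277730720, 0, 0, 0, 0, 0⟩, ⟨4570774272, 1, 0, 0, 0, 0⟩, ⟨7967873016, 2, 0, 0, 0, 0⟩,
    ⟨8603187120, 3, 0, 0, 0, 0⟩, ⟨7065740376, 4, 0, 0, 0, 0⟩, ⟨3548932272, 5, 0, 0, 0, 0⟩,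
    ⟨506218464, 6, 0, 0, 0, 0⟩, ⟨-10301527512, 0, 1, 0, 0, 0⟩, ⟨-24305557680, 1, 1, 0, 0, 0⟩,
    ⟨-29413800648, 2, 1, 0, 0, 0⟩, ⟨-19582654176, 3, 1, 0, 0, 0⟩, ⟨-8265858408, 4, 1, 0, 0, 0⟩,
    ⟨33743908152, 0, 2, 0, 0, 0⟩, ⟨31020428304, 1, 2, 0, 0, 0⟩, ⟨27055705752, 2, 2, 0, 0, 0⟩,
    ⟨-30722999328, 0, 3, 0, 0, 0⟩, ⟨-11340922968, 0, 0, 1, 0, 0⟩, ⟨5480873424, 1, 0, 1, 0, 0⟩,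
    ⟨25551524736, 2, 0, 1, 0, 0⟩, ⟨72795825792, 3, 0, 1, 0, 0⟩, ⟨-27058565376, 0, 1, 1, 0, 0⟩,
    ⟨-11961699624, 1, 1, 1, 0, 0⟩, ⟨225111583512, 0, 0, 2, 0, 0⟩]]

/-- Orbit sums. -/
def orbit : Fin 2 → List Term := ![
  [⟨5944066965504, 0, 0, 0, 1, 0⟩, ⟨52974983664, 0, 0, 0, 2, 0⟩, ⟨140965551936, 0, 0, 0, 1, 1⟩,
    ⟨11884910328, 0, 0, 0, 3, 0⟩, ⟨97820101008, 0, 0, 0, 0, 2⟩, ⟨5944066965504, 0, 1, 0, 0, 0⟩,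
    ⟨-726346481472, 0, 1, 0, 1, 0⟩, ⟨609558794820, 0, 1, 0, 2, 0⟩, ⟨12880525878, 0, 1, 0, 3, 0⟩,
    ⟨6780917916, 0, 1, 0, 4, 0⟩, ⟨-1205593512768, 0, 1, 0, 0, 1⟩, ⟨109669280184, 0, 1, 0, 1, 1⟩,
    ⟨-197390472480, 0, 1, 0, 2, 1⟩, ⟨-677054574288, 0, 1, 0, 0, 2⟩, ⟨165775100832, 0, 1, 0, 1, 2⟩,
    ⟨52974983664, 0, 2, 0, 0, 0⟩, ⟨609558794820, 0, 2, 0, 1, 0⟩, ⟨-57268344276, 0, 2, 0, 2, 0⟩,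
    ⟨-146989338309, 0, 2, 0, 3, 0⟩, ⟨19142469342, 0, 2, 0, 4, 0⟩, ⟨103600843560, 0, 2, 0, 0, 1⟩,
    ⟨-837520957440, 0, 2, 0, 1, 1⟩, ⟨377049832794, 0, 2, 0, 2, 1⟩, ⟨995628155544, 0, 2, 0, 0, 2⟩,
    ⟨-359950289544, 0, 2, 0, 1, 2⟩, ⟨11884910328, 0, 3, 0, 0, 0⟩, ⟨12880525878, 0, 3, 0, 1, 0⟩,
    ⟨-146989338309, 0, 3, 0, 2, 0⟩, ⟨173206281717, 0, 3, 0, 3, 0⟩, ⟨-13405743891, 0, 3, 0, 4, 0⟩,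
    ⟨-280228748904, 0, 3, 0, 0, 1⟩, ⟨358581887010, 0, 3, 0, 1, 1⟩, ⟨-268365520116, 0, 3, 0, 2, 1⟩,
    ⟨-402174761310, 0, 3, 0, 0, 2⟩, ⟨219720814956, 0, 3, 0, 1, 2⟩, ⟨6780917916, 0, 4, 0, 1, 0⟩,
    ⟨19142469342, 0, 4, 0, 2, 0⟩, ⟨-13405743891, 0, 4, 0, 3, 0⟩, ⟨5179962204, 0, 4, 0, 4, 0⟩,
    ⟨20342753748, 0, 4, 0, 0, 1⟩, ⟨32634173754, 0, 4, 0, 1, 1⟩, ⟨-11140633809, 0, 4, 0, 2, 1⟩,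
    ⟨29342670876, 0, 4, 0, 0, 2⟩, ⟨-14408389944, 0, 4, 0, 1, 2⟩, ⟨-1205593512768, 0, 0, 1, 1, 0⟩,
    ⟨103600843560, 0, 0, 1, 2, 0⟩, ⟨-280228748904, 0, 0, 1, 3, 0⟩, ⟨20342753748, 0, 0, 1, 4, 0⟩,
    ⟨4261536330192, 0, 0, 1, 0, 1⟩, ⟨-2257356893220, 0, 0, 1, 1, 1⟩, ⟨692593977654, 0, 0, 1, 2, 1⟩,
    ⟨1370917738512, 0, 0, 1, 0, 2⟩, ⟨-469721392416, 0, 0, 1, 1, 2⟩, ⟨140965551936, 0, 1, 1, 0, 0⟩,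
    ⟨109669280184, 0, 1, 1, 1, 0⟩, ⟨-837520957440, 0, 1, 1, 2, 0⟩, ⟨358581887010, 0, 1, 1, 3, 0⟩,
    ⟨32634173754, 0, 1, 1, 4, 0⟩, ⟨-2257356893220, 0, 1, 1, 0, 1⟩, ⟨4265785377360, 0, 1, 1, 1, 1⟩,
    ⟨-1569733345395, 0, 1, 1, 2, 1⟩, ⟨-1783183155336, 0, 1, 1, 0, 2⟩, ⟨827150714232, 0, 1, 1, 1, 2⟩,
    ⟨-197390472480, 0, 2, 1, 1, 0⟩, ⟨377049832794, 0, 2, 1, 2, 0⟩, ⟨-268365520116, 0, 2, 1, 3, 0⟩,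
    ⟨-11140633809, 0, 2, 1, 4, 0⟩, ⟨692593977654, 0, 2, 1, 0, 1⟩, ⟨-1569733345395, 0, 2, 1, 1, 1⟩,
    ⟨881970898608, 0, 2, 1, 2, 1⟩, ⟨571927194036, 0, 2, 1, 0, 2⟩, ⟨-421551617196, 0, 2, 1, 1, 2⟩,
    ⟨97820101008, 0, 0, 2, 0, 0⟩, ⟨-677054574288, 0, 0, 2, 1, 0⟩, ⟨995628155544, 0, 0, 2, 2, 0⟩,
    ⟨-402174761310, 0, 0, 2, 3, 0⟩, ⟨29342670876, 0, 0, 2, 4, 0⟩, ⟨1370917738512, 0, 0, 2, 0, 1⟩,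
    ⟨-1783183155336, 0, 0, 2, 1, 1⟩, ⟨571927194036, 0, 0, 2, 2, 1⟩, ⟨1093040540136, 0, 0, 2, 0, 2⟩,
    ⟨-409793436576, 0, 0, 2, 1, 2⟩, ⟨165775100832, 0, 1, 2, 1, 0⟩, ⟨-359950289544, 0, 1, 2, 2, 0⟩,
    ⟨219720814956, 0, 1, 2, 3, 0⟩, ⟨-14408389944, 0, 1, 2, 4, 0⟩, ⟨-469721392416, 0, 1, 2, 0, 1⟩,
    ⟨827150714232, 0, 1, 2, 1, 1⟩, ⟨-421551617196, 0, 1, 2, 2, 1⟩, ⟨-409793436576, 0, 1, 2, 0, 2⟩,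
    ⟨309905868664, 0, 1, 2, 1, 2⟩],
  [⟨4973482804032, 0, 0, 0, 1, 0⟩, ⟨-1430939613312, 0, 0, 0, 0, 1⟩, ⟨1204356790512, 0, 0, 0, 2, 0⟩,
    ⟨-1495398446496, 0, 0, 0, 1, 1⟩, ⟨89623942344, 0, 0, 0, 3, 0⟩, ⟨341342900928, 0, 0, 0, 0, 2⟩,
    ⟨4973482804032, 0, 1, 0, 0, 0⟩, ⟨2645289703008, 0, 1, 0, 1, 0⟩, ⟨-3160744108200, 0, 1, 0, 2, 0⟩,
    ⟨740822413644, 0, 1, 0, 3, 0⟩, ⟨46084498992, 0, 1, 0, 4, 0⟩, ⟨-1391054611968, 0, 1, 0, 0, 1⟩,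
    ⟨3451167705024, 0, 1, 0, 1, 1⟩, ⟨-1470667070952, 0, 1, 0, 2, 1⟩, ⟨287150090688, 0, 1, 0, 0, 2⟩,
    ⟨300148778016, 0, 1, 0, 1, 2⟩, ⟨1204356790512, 0, 2, 0, 0, 0⟩, ⟨-3160744108200, 0, 2, 0, 1, 0⟩,
    ⟨3764714375412, 0, 2, 0, 2, 0⟩, ⟨-1161404356266, 0, 2, 0, 3, 0⟩, ⟨37833088446, 0, 2, 0, 4, 0⟩,
    ⟨1570199624064, 0, 2, 0, 0, 1⟩, ⟨-1734465123432, 0, 2, 0, 1, 1⟩, ⟨756515601720, 0, 2, 0, 2, 1⟩,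
    ⟨-855211372128, 0, 2, 0, 0, 2⟩, ⟨12243314808, 0, 2, 0, 1, 2⟩, ⟨89623942344, 0, 3, 0, 0, 0⟩,
    ⟨740822413644, 0, 3, 0, 1, 0⟩, ⟨-1161404356266, 0, 3, 0, 2, 0⟩, ⟨356711341563, 0, 3, 0, 3, 0⟩,
    ⟨6409467144, 0, 3, 0, 4, 0⟩, ⟨-799042397760, 0, 3, 0, 0, 1⟩, ⟨59187458484, 0, 3, 0, 1, 1⟩,
    ⟨-153297990612, 0, 3, 0, 2, 1⟩, ⟨133309264752, 0, 3, 0, 0, 2⟩, ⟨79061638032, 0, 3, 0, 1, 2⟩,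
    ⟨46084498992, 0, 4, 0, 1, 0⟩, ⟨37833088446, 0, 4, 0, 2, 0⟩, ⟨6409467144, 0, 4, 0, 3, 0⟩,
    ⟨-2762852490, 0, 4, 0, 4, 0⟩, ⟨138253496976, 0, 4, 0, 0, 1⟩, ⟨37262427732, 0, 4, 0, 1, 1⟩,
    ⟨2675213163, 0, 4, 0, 2, 1⟩, ⟨-7614684936, 0, 4, 0, 0, 2⟩, ⟨6501515382, 0, 4, 0, 1, 2⟩,
    ⟨-1430939613312, 0, 0, 1, 0, 0⟩, ⟨-1391054611968, 0, 0, 1, 1, 0⟩,
    ⟨1570199624064, 0, 0, 1, 2, 0⟩, ⟨-799042397760, 0, 0, 1, 3, 0⟩, ⟨138253496976, 0, 0, 1, 4, 0⟩,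
    ⟨-4269589284096, 0, 0, 1, 0, 1⟩, ⟨4441557164832, 0, 0, 1, 1, 1⟩, ⟨-883184764248, 0, 0, 1, 2, 1⟩,
    ⟨-340518473856, 0, 0, 1, 0, 2⟩, ⟨71770197744, 0, 0, 1, 1, 2⟩, ⟨-1495398446496, 0, 1, 1, 0, 0⟩,
    ⟨3451167705024, 0, 1, 1, 1, 0⟩, ⟨-1734465123432, 0, 1, 1, 2, 0⟩, ⟨59187458484, 0, 1, 1, 3, 0⟩,
    ⟨37262427732, 0, 1, 1, 4, 0⟩, ⟨4441557164832, 0, 1, 1, 0, 1⟩, ⟨-169112547360, 0, 1, 1, 1, 1⟩,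
    ⟨-1331603075124, 0, 1, 1, 2, 1⟩, ⟨-544616234496, 0, 1, 1, 0, 2⟩, ⟨1326631386456, 0, 1, 1, 1, 2⟩,
    ⟨-1470667070952, 0, 2, 1, 1, 0⟩, ⟨756515601720, 0, 2, 1, 2, 0⟩, ⟨-153297990612, 0, 2, 1, 3, 0⟩,
    ⟨2675213163, 0, 2, 1, 4, 0⟩, ⟨-883184764248, 0, 2, 1, 0, 1⟩, ⟨-1331603075124, 0, 2, 1, 1, 1⟩,
    ⟨1231266192678, 0, 2, 1, 2, 1⟩, ⟨217694242872, 0, 2, 1, 0, 2⟩, ⟨-608452600536, 0, 2, 1, 1, 2⟩,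
    ⟨341342900928, 0, 0, 2, 0, 0⟩, ⟨287150090688, 0, 0, 2, 1, 0⟩, ⟨-855211372128, 0, 0, 2, 2, 0⟩,
    ⟨133309264752, 0, 0, 2, 3, 0⟩, ⟨-7614684936, 0, 0, 2, 4, 0⟩, ⟨-340518473856, 0, 0, 2, 0, 1⟩,
    ⟨-544616234496, 0, 0, 2, 1, 1⟩, ⟨217694242872, 0, 0, 2, 2, 1⟩, ⟨537577318944, 0, 0, 2, 0, 2⟩,
    ⟨49288334112, 0, 0, 2, 1, 2⟩, ⟨300148778016, 0, 1, 2, 1, 0⟩, ⟨12243314808, 0, 1, 2, 2, 0⟩,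
    ⟨79061638032, 0, 1, 2, 3, 0⟩, ⟨6501515382, 0, 1, 2, 4, 0⟩, ⟨71770197744, 0, 1, 2, 0, 1⟩,
    ⟨1326631386456, 0, 1, 2, 1, 1⟩, ⟨-608452600536, 0, 1, 2, 2, 1⟩, ⟨49288334112, 0, 1, 2, 0, 2⟩,
    ⟨303361875768, 0, 1, 2, 1, 2⟩]]

/-- The band. -/
def data : Data where
  q := 114
  lo := -51
  hi := -38
  den := 226492416
  wden := 37748736
  phi := phi
  rem := rem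
  pw := ![[⟨18822522, 0, 1, 0, 0, 0⟩, ⟨14506728, 0, 0, 1, 0, 0⟩, ⟨-316265, 0, 2, 0, 0, 0⟩],
    [⟨7435518, 0, 1, 0, 0, 0⟩, ⟨6622398, 0, 0, 1, 0, 0⟩, ⟨-2338629, 0, 2, 0, 0, 0⟩]]
  qw := ![[⟨32700, 0, 1, 0, 0, 0⟩, ⟨32904, 0, 0, 1, 0, 0⟩, ⟨-5943, 0, 2, 0, 0, 0⟩],
    [⟨37748736, 0, 0, 0, 0, 0⟩, ⟨-78828, 0, 1, 0, 0, 0⟩, ⟨-232506, 0, 0, 1, 0, 0⟩,
    ⟨-60492, 0, 2, 0, 0, 0⟩]]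
  mult := []
  xn := 1
  xd := 1
  gain := 147456
  low := 226492416
  scale := 26244
  orbit := orbit
  keyTree := ![[(.nd 3 (.nd 1 .lf (.nd 1 .lf .lf)) (.nd 4 (.nd 1 .lf (.nd 3 (.nd 1 (.nd 3 (.nd 1 .lf .lf)
        .lf) .lf) .lf)) (.nd 4 .lf .lf))),
      (.nd 3 (.nd 4 (.nd 3 (.nd 1 .lf (.nd 1 .lf .lf)) (.nd 1 .lf .lf)) (.nd 2 .lf (.nd 2 .lf (.nd
        4 (.nd 3 (.nd 2 .lf (.nd 2 .lf (.nd 1 .lf (.nd 4 (.nd 3 .lf (.nd 1 .lf (.nd 1 .lf .lf)))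
        (.nd 0 (.nd 0 (.nd 2 .lf (.nd 3 .lf (.nd 1 .lf .lf))) .lf) .lf))))) .lf) (.nd 3 .lf .lf)))))
        .lf),
      (.nd 3 .lf (.nd 4 .lf .lf)),
      (.nd 3 (.nd 4 (.nd 3 .lf .lf) (.nd 2 .lf (.nd 2 .lf (.nd 3 (.nd 4 (.nd 4 (.nd 3 .lf .lf)
        .lf) .lf) .lf)))) .lf)],
    [(.nd 3 .lf (.nd 1 .lf .lf)),
      (.nd 1 .lf .lf),
      (.nd 3 (.nd 1 .lf (.nd 3 .lf .lf)) (.nd 1 (.nd 3 (.nd 1 .lf .lf) .lf) .lf)),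
      .lf]]
  surTree := ![[(.nd 0 (.nd 0 .lf (.nd 0 .lf (.nd 0 (.nd 0 .lf .lf) .lf))) (.nd 0 (.nd 0 (.nd 1 .lf .lf)
        (.nd 1 .lf (.nd 1 (.nd 0 .lf .lf) (.nd 2 (.nd 1 (.nd 0 .lf .lf) (.nd 1 .lf .lf)) (.nd 2 (.nd
        0 .lf .lf) .lf))))) (.nd 2 (.nd 1 .lf (.nd 1 .lf (.nd 1 (.nd 0 (.nd 2 (.nd 0 .lf .lf) .lf)
        .lf) (.nd 0 (.nd 2 (.nd 0 (.nd 1 .lf .lf) (.nd 1 (.nd 2 .lf .lf) (.nd 2 .lf .lf))) (.nd 0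
        (.nd 1 .lf .lf) (.nd 2 (.nd 1 .lf .lf) .lf))) (.nd 2 (.nd 1 .lf (.nd 2 (.nd 0 (.nd 1 .lf
        .lf) (.nd 1 .lf .lf)) (.nd 0 .lf .lf))) .lf))))) (.nd 1 .lf (.nd 2 (.nd 1 .lf (.nd 0 (.nd 0
        .lf .lf) .lf)) .lf))))),
      (.nd 0 (.nd 0 .lf (.nd 0 .lf (.nd 0 (.nd 0 .lf .lf) .lf))) (.nd 0 (.nd 0 (.nd 1 .lf .lf)
        (.nd 1 .lf (.nd 1 (.nd 0 .lf .lf) (.nd 2 (.nd 1 (.nd 0 .lf .lf) (.nd 1 .lf .lf)) (.nd 2 (.nd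
        0 .lf .lf) .lf))))) (.nd 2 (.nd 1 .lf (.nd 1 .lf (.nd 1 (.nd 0 (.nd 2 (.nd 0 .lf .lf) .lf)
        .lf) (.nd 0 (.nd 2 (.nd 0 (.nd 1 .lf .lf) (.nd 1 (.nd 2 .lf .lf) (.nd 2 .lf .lf))) (.nd 0
        (.nd 1 .lf .lf) (.nd 2 (.nd 1 .lf .lf) .lf))) (.nd 2 (.nd 1 .lf (.nd 2 (.nd 0 (.nd 1 .lf
        .lf) (.nd 1 .lf .lf)) (.nd 0 .lf .lf))) .lf))))) (.nd 1 .lf (.nd 2 (.nd 1 .lf (.nd 0 (.nd 0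
        .lf .lf) .lf)) .lf))))),
      (.nd 0 (.nd 0 .lf (.nd 0 .lf (.nd 0 (.nd 0 .lf .lf) .lf))) (.nd 1 (.nd 0 (.nd 2 .lf (.nd 2
        (.nd 0 .lf .lf) (.nd 0 .lf .lf))) (.nd 2 (.nd 0 (.nd 2 (.nd 1 .lf .lf) (.nd 2 .lf (.nd 0 .lf
        .lf))) (.nd 2 (.nd 1 (.nd 2 (.nd 0 .lf .lf) (.nd 0 .lf .lf)) (.nd 0 .lf .lf)) .lf)) (.nd 2
        (.nd 0 (.nd 0 .lf .lf) .lf) .lf))) (.nd 0 .lf .lf))),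
      (.nd 0 (.nd 0 .lf (.nd 0 .lf (.nd 0 (.nd 0 .lf .lf) .lf))) (.nd 1 (.nd 0 (.nd 2 .lf (.nd 2
        (.nd 0 .lf .lf) (.nd 0 .lf .lf))) (.nd 2 (.nd 0 (.nd 2 (.nd 1 .lf .lf) (.nd 2 .lf (.nd 0 .lf
        .lf))) (.nd 2 (.nd 1 (.nd 2 (.nd 0 .lf .lf) (.nd 0 .lf .lf)) (.nd 0 .lf .lf)) .lf)) (.nd 2
        (.nd 0 (.nd 0 .lf .lf) .lf) .lf))) (.nd 0 .lf .lf)))],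
    [(.nd 0 .lf (.nd 0 (.nd 0 (.nd 1 .lf .lf) (.nd 1 .lf (.nd 1 .lf (.nd 2 (.nd 1 .lf (.nd 2 .lf
        (.nd 0 .lf .lf))) (.nd 0 .lf .lf))))) (.nd 2 (.nd 1 .lf (.nd 1 .lf (.nd 1 .lf (.nd 2 (.nd 0
        (.nd 0 (.nd 1 .lf .lf) .lf) .lf) (.nd 0 (.nd 0 (.nd 0 .lf .lf) .lf) .lf))))) .lf))),
      (.nd 0 .lf (.nd 0 (.nd 0 (.nd 1 .lf .lf) (.nd 1 .lf (.nd 1 .lf (.nd 2 (.nd 1 .lf (.nd 2 .lf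
        (.nd 0 .lf .lf))) (.nd 0 .lf .lf))))) (.nd 2 (.nd 1 .lf (.nd 1 .lf (.nd 1 .lf (.nd 2 (.nd 0
        (.nd 0 (.nd 1 .lf .lf) .lf) .lf) (.nd 0 (.nd 0 (.nd 0 .lf .lf) .lf) .lf))))) .lf))),
      (.nd 0 (.nd 0 .lf (.nd 1 .lf .lf)) (.nd 0 (.nd 1 (.nd 2 (.nd 1 (.nd 0 (.nd 1 .lf .lf) (.nd 2
        .lf .lf)) .lf) (.nd 0 .lf (.nd 0 .lf .lf))) .lf) (.nd 1 (.nd 2 (.nd 2 .lf (.nd 0 .lf .lf))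
        .lf) (.nd 1 .lf .lf)))),
      (.nd 0 (.nd 0 .lf (.nd 1 .lf .lf)) (.nd 0 (.nd 1 (.nd 2 (.nd 1 (.nd 0 (.nd 1 .lf .lf) (.nd 2
        .lf .lf)) .lf) (.nd 0 .lf (.nd 0 .lf .lf))) .lf) (.nd 1 (.nd 2 (.nd 2 .lf (.nd 0 .lf .lf))
        .lf) (.nd 1 .lf .lf))))]]
  oneTree := [.lf,
      .lf,
      .lf,
      .lf]
  idBits := 100
  posBits := 240

end Vale.Agent.P154.Neg.Band.Five
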