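import Vale.Agent.P154.Neg.Band.Five.Cert
import Vale.Agent.P154.Neg.Band.Sound

/-!
# P154: the band `[-17/38, -1/3)` is sound
-/

namespace Vale.Agent.P154.Neg.Band.Five

theorem check_data : check data = true := by
  simp only [check, Bool.and_eq_true, List.all_eq_true]
  refine ⟨⟨shape_check, side_check⟩, fun k _ => ⟨⟨⟨id_check k, ?_⟩, ?_⟩, range_check k⟩⟩
  · fin_cases k
    · exact key_check0
    · exact key_check1
  · fin_cases k
    · exact sur_check0
    · exact sur_check1

theorem sound : Sound data := sound_of_check data check_data

/-- The interval of the band. -/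
theorem interval : (data.lo : ℝ) / data.q = -17 / 38 ∧ (data.hi : ℝ) / data.q = -1 / 3 := by
  constructor <;> norm_num [data]

/-- The condition is void: the threshold is one. -/
theorem threshold : x0 data = 1 := by norm_num [x0, data]

end Vale.Agent.P154.Neg.Band.Five
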